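import Vale.Agent.P348.Defs
import Vale.Agent.P348.H997.Defs
import Vale.Agent.P348.H997.Local
import Vale.Agent.P348.H997.Phase
import Vale.Agent.P348.H997.State
namespace Vale.Agent.Results.P348.HaldaneState

open Vale.Agent.P348 Matrix

/-- Haldane's conjecture for spin one, at finite length and in the infinite chain: uniform gap,
unique singlet ground state, exponential clustering of all local observables, and one
infinite-volume ground state, approached exponentially fast, which is invariant, exponentially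
clustering and gapped. -/
theorem result :
    -- (1) the question as posed, for all even `L ≥ 4`
    ((∃ γ : ℝ, 0 < γ ∧ ∀ (L : ℕ) [NeZero L], Even L → 4 ≤ L →
      IsLeast (energies L) (E0 L) ∧ IsLeast {E ∈ energies L | E0 L < E} (E1 L) ∧
        γ ≤ gap L) ∧
      0 < Delta1) ∧
    -- (2) explicit lower bounds of the gap and of `Δ₁`
    ((∀ (L : ℕ) [NeZero L], Even L → 12 ≤ L → 1 / 25 ≤ gap L) ∧
      ((1 / 25 : ℝ) : EReal) ≤ Delta1) ∧
    -- (3) the ground state is unique and a spin singlet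
    (∀ (L : ℕ) [NeZero L], Even L → 12 ≤ L →
      ∃ ψ : (Fin L → Fin 3) → ℂ, ψ ≠ 0 ∧ (haldaneH L).mulVec ψ = (E0 L : ℂ) • ψ ∧
        (∀ φ : (Fin L → Fin 3) → ℂ, (haldaneH L).mulVec φ = (E0 L : ℂ) • φ →
          ∃ c : ℂ, φ = c • ψ) ∧
        ∀ a : Fin 3, (totalSpin L a).mulVec ψ = 0) ∧
    -- (4) exponential decay of the spin correlations in the ground state, uniformly in `L`
    (∃ C : ℝ, ∀ (L : ℕ) [NeZero L], Even L → 12 ≤ L →
      ∀ ψ : (Fin L → Fin 3) → ℂ, (haldaneH L).mulVec ψ = (E0 L : ℂ) • ψ →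
        ∀ i j : Fin L, i ≠ j → ∀ a b : Fin 3,
          ‖star ψ ⬝ᵥ (onSite i (spin a) * onSite j (spin b)).mulVec ψ‖ ≤
            C * Real.exp (-(((min ((i - j : Fin L) : ℕ) ((j - i : Fin L) : ℕ) : ℕ) : ℝ) / 54)) *
              (star ψ ⬝ᵥ ψ).re) ∧
    -- (5) exponential clustering of all local observables, uniformly in `L`
    (∀ r s : ℕ, ∃ C : ℝ, ∀ (L : ℕ) [NeZero L], Even L → 12 ≤ L →
      ∀ ψ : (Fin L → Fin 3) → ℂ, (haldaneH L).mulVec ψ = (E0 L : ℂ) • ψ →
        ∀ (A : Matrix (Fin r → Fin 3) (Fin r → Fin 3) ℂ)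
          (B : Matrix (Fin s → Fin 3) (Fin s → Fin 3) ℂ),
          (∀ u v, ‖A u v‖ ≤ 1) → (∀ u v, ‖B u v‖ ≤ 1) →
          ∀ x y : Fin L, r ≤ ((y - x : Fin L) : ℕ) → ((y - x : Fin L) : ℕ) + s ≤ L →
            ‖(star ψ ⬝ᵥ (localOp L r x A * localOp L s y B).mulVec ψ) * (star ψ ⬝ᵥ ψ) -
              (star ψ ⬝ᵥ (localOp L r x A).mulVec ψ) *
                (star ψ ⬝ᵥ (localOp L s y B).mulVec ψ)‖ ≤
              C * Real.exp (-((min (((y - x : Fin L) : ℕ) - r)
                (L - (((y - x : Fin L) : ℕ) + s)) : ℕ) : ℝ) / 54) * (star ψ ⬝ᵥ ψ).re ^ 2) ∧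
    ∃ (e : ℝ) (ω : ∀ r : ℕ, Matrix (Fin r → Fin 3) (Fin r → Fin 3) ℂ →ₗ[ℂ] ℂ),
      -- (6) exponentially small finite-size corrections of the ground energy and thermal
      -- corrections of the pressure
      ((∀ (L : ℕ) [NeZero L], Even L → 12 ≤ L →
          0 ≤ e * L - E0 L ∧ e * L - E0 L ≤ Real.exp (-(L / 54))) ∧
        ∀ β : ℝ, 15 / 2 ≤ β →
          ∃ p : ℝ, Filter.Tendsto
              (fun m : ℕ => Real.log (partitionFn (2 * m + 4) β).re / (2 * m + 4))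
              Filter.atTop (nhds p) ∧
            0 ≤ p + β * e ∧ p + β * e ≤ Real.exp (-(β / 25))) ∧
      -- (7) `ω` is a translation and rotation invariant state of the infinite chain with energy
      -- density `e`, the limit of the ground states of the rings with exponential rate
      (IsInvariantState ω ∧ ω 2 (openH 1) = (e : ℂ) ∧
        ∀ r : ℕ, ∃ C : ℝ, ∀ (L : ℕ) [NeZero L], Even L → 12 ≤ L → r ≤ L →
          ∀ ψ : (Fin L → Fin 3) → ℂ, (haldaneH L).mulVec ψ = (E0 L : ℂ) • ψ →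
            ∀ A : Matrix (Fin r → Fin 3) (Fin r → Fin 3) ℂ, (∀ u v, ‖A u v‖ ≤ 1) →
              ∀ x : Fin L,
                ‖star ψ ⬝ᵥ (localOp L r x A).mulVec ψ - ω r A * (star ψ ⬝ᵥ ψ)‖ ≤
                  C * Real.exp (-(L : ℝ) / 54) * (star ψ ⬝ᵥ ψ).re) ∧
      -- (8) `ω` clusters exponentially
      (∀ r s : ℕ, ∃ C : ℝ, ∀ (q : ℕ) (x y : Fin (q + 1)),
        (x : ℕ) + r ≤ y → (y : ℕ) + s ≤ q + 1 →
        ∀ (A : Matrix (Fin r → Fin 3) (Fin r → Fin 3) ℂ)
          (B : Matrix (Fin s → Fin 3) (Fin s → Fin 3) ℂ),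
          (∀ u v, ‖A u v‖ ≤ 1) → (∀ u v, ‖B u v‖ ≤ 1) →
          ‖ω (q + 1) (localOp (q + 1) r x A * localOp (q + 1) s y B) - ω r A * ω s B‖ ≤
            C * Real.exp (-(((y : ℕ) - x - r : ℕ) : ℝ) / 54)) ∧
      -- (9) the gap of the infinite chain: `ω(A* [H, A]) ≥ (1/25) (ω(A* A) - |ω(A)|²)`
      ∀ (r : ℕ) (A : Matrix (Fin r → Fin 3) (Fin r → Fin 3) ℂ),
        1 / 25 * ((ω r (Aᴴ * A)).re - ‖ω r A‖ ^ 2) ≤
          (ω (r + 2) ((localOp (r + 2) r 1 A)ᴴ *
            (openH (r + 1) * localOp (r + 2) r 1 A -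
              localOp (r + 2) r 1 A * openH (r + 1)))).re :=
  ⟨haldane_gap, ⟨gap_ge_25, Delta1_ge_25⟩, ground_unique, clustering, cluster_state,
    DD.e0 / 2, omega, ⟨energy_corr, fun _ hβ => pressure hβ⟩,
    ⟨omega_state, omega_energy, thermo_state⟩, omega_cluster, omega_gap⟩

end Vale.Agent.Results.P348.HaldaneState
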