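import Vale.Agent.P348.Defs
import Vale.Agent.P348.H997.Defs
import Vale.Agent.P348.H997.Main
namespace Vale.Agent.Results.P348.QuantitativeHaldaneGap

open Vale.Agent.P348

/-- Haldane's conjecture for spin one in quantitative form: uniform gap `1/25`, unique singlet
ground state, exponentially small finite-size and thermal corrections. -/
theorem result :
    -- (1) the question as posed, for all even `L ≥ 4`
    ((∃ γ : ℝ, 0 < γ ∧ ∀ (L : ℕ) [NeZero L], Even L → 4 ≤ L →
      IsLeast (energies L) (E0 L) ∧ IsLeast {E ∈ energies L | E0 L < E} (E1 L) ∧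
        γ ≤ gap L) ∧
      0 < Delta1) ∧
    -- (2) explicit lower bounds of the gap and of `Δ₁`
    ((∀ (L : ℕ) [NeZero L], Even L → 12 ≤ L → 1 / 25 ≤ gap L) ∧
      ((1 / 25 : ℝ) : EReal) ≤ Delta1) ∧
    -- (3) the ground state is unique and a spin singlet
    (∀ (L : ℕ) [NeZero L], Even L → 12 ≤ L →
      ∃ ψ : (Fin L → Fin 3) → ℂ, ψ ≠ 0 ∧ (haldaneH L).mulVec ψ = (E0 L : ℂ) • ψ ∧
        (∀ φ : (Fin L → Fin 3) → ℂ, (haldaneH L).mulVec φ = (E0 L : ℂ) • φ →
          ∃ c : ℂ, φ = c • ψ) ∧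
        ∀ a : Fin 3, (totalSpin L a).mulVec ψ = 0) ∧
    -- (4) exponentially small finite-size corrections of the ground energy and
    -- (5) exponentially small thermal corrections of the pressure, with one energy density `e`
    ∃ e : ℝ,
      (∀ (L : ℕ) [NeZero L], Even L → 12 ≤ L →
        0 ≤ e * L - E0 L ∧ e * L - E0 L ≤ Real.exp (-(L / 54))) ∧
      ∀ β : ℝ, 15 / 2 ≤ β →
        ∃ p : ℝ, Filter.Tendsto
            (fun m : ℕ => Real.log (partitionFn (2 * m + 4) β).re / (2 * m + 4))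
            Filter.atTop (nhds p) ∧
          0 ≤ p + β * e ∧ p + β * e ≤ Real.exp (-(β / 25)) :=
  ⟨haldane_gap, ⟨gap_ge_25, Delta1_ge_25⟩, ground_unique, DD.e0 / 2, energy_corr,
    fun _ hβ => pressure hβ⟩

end Vale.Agent.Results.P348.QuantitativeHaldaneGap
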